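import Vale.Agent.P164.H411.Main

open Vale.Agent.P164 Set MeasureTheory ProbabilityTheory

universe u

/-- The exact Hausdorff gauge of the SLE trace for all `0 < κ < 8` is
`G(r) = r^(1+κ/8) (log log (1/r))^(1/2-κ/16)`: such a gauge exists and is good, every gauge
comparable to it near `0` is good, every gauge of smaller order gives measure zero and every gauge
of larger order gives infinite measure to all segments. Moreover regular gauges `k` are classified
by the lower limit of `k/G` alone, in every simply connected domain: null law, good law (with the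
bounds for the means, and with the measure as a parametrisation of the trace) or infinite law. -/
theorem Vale.Agent.Results.P164.GaugeClassification.result (κ : ℝ) (h0 : 0 < κ) (h8 : κ < 8) :
    ((∃ h : ℝ → ℝ, IsGauge h ∧
      (∃ r₀ : ℝ, 0 < r₀ ∧ ∀ r : ℝ, 0 < r → r < r₀ →
        h r = r ^ (1 + κ / 8) * Real.log (Real.log (1 / r)) ^ (1 / 2 - κ / 16)) ∧
      Good8.{u} κ h) ∧
    (∀ k : ℝ → ℝ, IsGauge k →
      ((∃ c C r₀ : ℝ, 0 < c ∧ 0 < r₀ ∧ ∀ r : ℝ, 0 < r → r < r₀ →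
          c * (r ^ (1 + κ / 8) * Real.log (Real.log (1 / r)) ^ (1 / 2 - κ / 16)) ≤ k r ∧
          k r ≤ C * (r ^ (1 + κ / 8) * Real.log (Real.log (1 / r)) ^ (1 / 2 - κ / 16))) →
        Good8.{u} κ k) ∧
      ((∀ ε : ℝ, 0 < ε → ∃ δ : ℝ, 0 < δ ∧ ∀ r : ℝ, 0 < r → r ≤ δ →
          k r ≤ ε * (r ^ (1 + κ / 8) * Real.log (Real.log (1 / r)) ^ (1 / 2 - κ / 16))) →
        AllNull8.{u} κ k) ∧
      ((∀ ε : ℝ, 0 < ε → ∃ δ : ℝ, 0 < δ ∧ ∀ r : ℝ, 0 < r → r ≤ δ →
          r ^ (1 + κ / 8) * Real.log (Real.log (1 / r)) ^ (1 / 2 - κ / 16) ≤ ε * k r) →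
        AllInf8.{u} κ k) ∧
      ((∃ r₀ : ℝ, 0 < r₀ ∧ ∀ r : ℝ, 0 < r → r < r₀ →
          k r = r ^ (1 + κ / 8) * Real.log (Real.log (1 / r))) →
        AllInf8.{u} κ k))) ∧
    ∀ k : ℝ → ℝ, IsGauge k →
      (IsRegularGauge κ k →
        (lowRatio κ k = 0 → LawNull.{u} κ k) ∧
        (0 < lowRatio κ k → lowRatio κ k < ⊤ → LawGood.{u} κ k)) ∧
      (lowRatio κ k = ⊤ → LawInf.{u} κ k) :=
  ⟨full_of_core h0 h8 fun _ hg hr => good8 h0 h8 hg hr, fun _ hk => H411.classify h0 h8 hk⟩
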