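import Vale.Agent.P164.H362.SDefs
import Vale.Agent.P164.H362.IntrMain

open Vale.Agent.P164 Set MeasureTheory ProbabilityTheory

universe u

/-- The exact Hausdorff gauge of the SLE trace, `0 < κ < 8`, for Mathlib's metric measure, and the
intrinsic measure of the trace. (1) The function `r^(1+κ/8) (log log (1/r))^(1/2-κ/16)` is a good
gauge; gauges comparable to it are good, gauges of smaller order give measure zero, gauges of larger
order (Schramm's candidate) infinite measure, to all segments. (2) For every gauge `h` asymptotic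
to a positive multiple of it the measure is exactly conformally covariant. (3) On the trace it is
locally finite, it is a continuous strictly increasing parametrisation, it satisfies a law of the
iterated logarithm, and the same holds in all simply connected domains at once. -/
theorem Vale.Agent.Results.P164.IntrinsicMeasure.result (κ : ℝ) (h0 : 0 < κ) (h8 : κ < 8) :
    (∃ h : ℝ → ℝ, IsGauge h ∧ (∃ r₀ : ℝ, 0 < r₀ ∧ ∀ r : ℝ, 0 < r → r < r₀ → h r = sleG κ r) ∧
      PosFin.{u} κ h) ∧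
    (∀ k : ℝ → ℝ, IsGauge k →
      ((∃ c C r₀ : ℝ, 0 < c ∧ 0 < r₀ ∧ ∀ r : ℝ, 0 < r → r < r₀ →
          c * sleG κ r ≤ k r ∧ k r ≤ C * sleG κ r) → PosFin.{u} κ k) ∧
      ((∀ ε : ℝ, 0 < ε → ∃ δ : ℝ, 0 < δ ∧ ∀ r : ℝ, 0 < r → r ≤ δ → k r ≤ ε * sleG κ r) →
        Zero.{u} κ k) ∧
      ((∀ ε : ℝ, 0 < ε → ∃ δ : ℝ, 0 < δ ∧ ∀ r : ℝ, 0 < r → r ≤ δ → sleG κ r ≤ ε * k r) →
        Infinite.{u} κ k) ∧
      ((∃ r₀ : ℝ, 0 < r₀ ∧ ∀ r : ℝ, 0 < r → r < r₀ →
          k r = r ^ (1 + κ / 8) * Real.log (Real.log (1 / r))) → Infinite.{u} κ k)) ∧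
    ∀ h : ℝ → ℝ, IsGauge h →
      (∃ c : ℝ, 0 < c ∧ Filter.Tendsto (fun r => h r / sleG κ r) (nhdsWithin 0 (Ioi 0)) (nhds c)) →
      ConfCov κ h ∧ TraceLaw.{u} κ h :=
  H362.intrinsic h0 h8
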